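import Vale.Agent.P226.OneDim
import Vale.Agent.P226.Poly

/-!
# Numerical bounds for `Gfun`
-/

open MeasureTheory ProbabilityTheory Set Filter Real

namespace Vale.Agent.P226

lemma c0_le : c0 ≤ 398943/1000000 := by
  unfold c0
  have h1 : (1000000/398943 : ℝ) ≤ √(2 * π) := by
    apply Real.le_sqrt_of_sq_le
    have := Real.pi_gt_d6
    norm_num
    linarith
  have h2 : (0:ℝ) < 1000000/398943 := by norm_num
  calc (√(2 * π))⁻¹ ≤ (1000000/398943 : ℝ)⁻¹ := inv_anti₀ h2 h1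
    _ = 398943/1000000 := by norm_num

lemma c0_sq : c0 ^ 2 = 1 / (2 * π) := by
  unfold c0
  rw [inv_pow, Real.sq_sqrt (by positivity)]
  simp

lemma Q_pos (t : ℝ) : 0 < 1 + t ^ 2 / 2 - t ^ 4 / 24 + t ^ 6 / 240 := by
  nlinarith [sq_nonneg (t ^ 2), sq_nonneg (t ^ 3 - 5 * t / 2 ), sq_nonneg t, sq_nonneg (t^3)]

lemma Gfun_le_poly' (t : ℝ) (ht : 0 ≤ t) :
    Gfun t ≤ (398943/1000000:ℝ) * (1 + t ^ 2 / 2 - t ^ 4 / 24 + t ^ 6 / 240) - t / 2 := by
  have h1 := Gfun_le_poly t ht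
  have h2 := mul_le_mul_of_nonneg_right c0_le (Q_pos t).le
  linarith

lemma exp_neg_three_le : rexp (-3) ≤ 1/19 := by
  have h1 : (2.7:ℝ) < rexp 1 := by
    have := Real.exp_one_gt_d9
    linarith
  have h2 : rexp 3 = rexp 1 ^ 3 := by
    rw [← Real.exp_nat_mul]; norm_num
  have h3 : (19:ℝ) ≤ rexp 3 := by
    rw [h2]
    have : (2.7:ℝ) ^ 3 ≤ rexp 1 ^ 3 := pow_le_pow_left₀ (by norm_num) h1.le 3
    norm_num at this
    linarith
  rw [Real.exp_neg]
  rw [one_div]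
  exact inv_anti₀ (by norm_num) h3

lemma key_tail (t : ℝ) (ht : 2 ≤ t) : 4 * t * Gfun t ≤ 4/19 := by
  have htpos : 0 < t := by linarith
  have h1 := Gfun_le_exp t htpos
  have h2 : rexp (-t ^ 2 / 2 - 1) ≤ rexp (-3) := by
    apply Real.exp_le_exp.2
    nlinarith
  have h3 : 4 * t * Gfun t ≤ 4 * t * (rexp (-t ^ 2 / 2 - 1) / t) :=
    mul_le_mul_of_nonneg_left h1 (by positivity)
  have h4 : 4 * t * (rexp (-t ^ 2 / 2 - 1) / t) = 4 * rexp (-t ^ 2 / 2 - 1) := by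
    field_simp
  have := exp_neg_three_le
  linarith

/-- `4 t E(g-t)_+ ≤ 0.405` for all `t ≥ 0`. -/
lemma key_all (t : ℝ) (ht : 0 ≤ t) : 4 * t * Gfun t ≤ 81/200 := by
  rcases le_total t 2 with h | h
  · have h1 := Gfun_le_poly' t ht
    have h2 := polyA t ht h
    have h3 : 4 * t * Gfun t ≤ 4 * t * ((398943/1000000:ℝ) *
        (1 + t ^ 2 / 2 - t ^ 4 / 24 + t ^ 6 / 240) - t / 2) :=
      mul_le_mul_of_nonneg_left h1 (by positivity)
    linarith
  · have := key_tail t h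
    linarith

/-- `4 t E(g-t)_+ ≤ 0.35809` for all `t ≥ 0.94`. -/
lemma key_large (t : ℝ) (ht : 94/100 ≤ t) : 4 * t * Gfun t ≤ 35809/100000 := by
  have ht0 : 0 ≤ t := by linarith
  rcases le_total t 2 with h | h
  · have h1 := Gfun_le_poly' t ht0
    have h2 := polyB0 t (by linarith) h
    have h3 : 4 * t * Gfun t ≤ 4 * t * ((398943/1000000:ℝ) *
        (1 + t ^ 2 / 2 - t ^ 4 / 24 + t ^ 6 / 240) - t / 2) :=
      mul_le_mul_of_nonneg_left h1 (by positivity)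
    linarith
  · have := key_tail t h
    linarith

lemma Gfun_zero_le : Gfun 0 ≤ c0 := by
  have := Gfun_le_poly 0 le_rfl
  simpa using this

lemma Gfun_107 : Gfun (107/100) ≤ 73024/1000000 := by
  have := Gfun_le_poly' (107/100) (by norm_num)
  norm_num at this ⊢
  linarith

lemma lam0_le : (35809/100000:ℝ) ≤ 9 / (8 * π) := by
  have h := Real.pi_lt_d4
  rw [le_div_iff₀ (by positivity)]
  linarith

end Vale.Agent.P226
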