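import Vale.Agent.P226.Bounds

/-!
# Bounds for the Gaussian first moment of a single cell
-/

open MeasureTheory ProbabilityTheory Set Filter Real

namespace Vale.Agent.P226

variable {E : Type*} [NormedAddCommGroup E] [InnerProductSpace ℝ E] [FiniteDimensional ℝ E]
  [MeasurableSpace E] [BorelSpace E]

lemma map_inner (u : E) (hu : ‖u‖ = 1) :
    (stdGaussian E).map (fun x => inner ℝ u x) = gaussianReal 0 1 := by
  have h := IsGaussian.map_eq_gaussianReal (μ := stdGaussian E) (innerSL ℝ u)
  rw [integral_strongDual_stdGaussian, variance_dual_stdGaussian, innerSL_apply_norm, hu] at h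
  simpa using h

lemma integrable_inner (u : E) : Integrable (fun x : E => inner ℝ u x) (stdGaussian E) :=
  IsGaussian.integrable_dual (stdGaussian E) (innerSL ℝ u)

lemma integral_pos_part (u : E) (hu : ‖u‖ = 1) (t : ℝ) :
    ∫ x, max (inner ℝ u x - t) 0 ∂(stdGaussian E) = Gfun t := by
  unfold Gfun
  rw [← map_inner u hu, integral_map (by fun_prop) (by fun_prop)]

lemma cell_linear (A : Set E) (hA : MeasurableSet A) (u : E) (hu : ‖u‖ = 1) (t : ℝ) :
    ∫ x in A, inner ℝ u x ∂(stdGaussian E) ≤ Gfun t + t * (stdGaussian E).real A := by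
  have hi : Integrable (fun x : E => inner ℝ u x - t) (stdGaussian E) :=
    (integrable_inner u).sub (integrable_const t)
  have hp : Integrable (fun x : E => max (inner ℝ u x - t) 0) (stdGaussian E) := hi.pos_part
  have e1 : ∫ x in A, inner ℝ u x ∂(stdGaussian E)
      = ∫ x in A, (inner ℝ u x - t) ∂(stdGaussian E) + t * (stdGaussian E).real A := by
    rw [integral_sub (integrable_inner u).integrableOn (integrable_const t).integrableOn]
    simp [mul_comm]
  have e2 : ∫ x in A, (inner ℝ u x - t) ∂(stdGaussian E)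
      ≤ ∫ x in A, max (inner ℝ u x - t) 0 ∂(stdGaussian E) :=
    setIntegral_mono hi.integrableOn hp.integrableOn (fun x => le_max_left _ _)
  have e3 : ∫ x in A, max (inner ℝ u x - t) 0 ∂(stdGaussian E)
      ≤ ∫ x, max (inner ℝ u x - t) 0 ∂(stdGaussian E) :=
    setIntegral_le_integral hp (ae_of_all _ (fun x => le_max_right _ _))
  rw [integral_pos_part u hu t] at e3
  linarith

lemma cell_norm (A : Set E) (hA : MeasurableSet A) (t : ℝ) (ht : 0 ≤ t) :
    ‖∫ x in A, x ∂(stdGaussian E)‖ ≤ Gfun t + t * (stdGaussian E).real A := by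
  set z := ∫ x in A, x ∂(stdGaussian E) with hz
  by_cases h0 : z = 0
  · rw [h0, norm_zero]
    exact add_nonneg (Gfun_nonneg t) (mul_nonneg ht measureReal_nonneg)
  · have hn : 0 < ‖z‖ := norm_pos_iff.2 h0
    set u : E := ‖z‖⁻¹ • z with hu
    have hu1 : ‖u‖ = 1 := by
      rw [hu, norm_smul, norm_inv, norm_norm]
      exact inv_mul_cancel₀ hn.ne'
    have h1 : inner ℝ u z = ‖z‖ := by
      rw [hu, real_inner_smul_left, real_inner_self_eq_norm_sq]
      field_simp
    have h2 : ∫ x in A, inner ℝ u x ∂(stdGaussian E) = inner ℝ u z := by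
      rw [hz]
      exact integral_inner (IsGaussian.integrable_fun_id (μ := stdGaussian E)).integrableOn u
    rw [← h1, ← h2]
    exact cell_linear A hA u hu1 t

/-- If `4 t G(t) ≤ lam` at `t = √(lam / (4 a))`, `a = γ(A)`, then `|z(A)|^2 ≤ lam a`. -/
lemma cell_sq_of_key (A : Set E) (hA : MeasurableSet A) (lam : ℝ) (hlam : 0 < lam)
    (hkey : 4 * √(lam / (4 * (stdGaussian E).real A)) *
      Gfun (√(lam / (4 * (stdGaussian E).real A))) ≤ lam) :
    ‖∫ x in A, x ∂(stdGaussian E)‖ ^ 2 ≤ lam * (stdGaussian E).real A := by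
  set a := (stdGaussian E).real A with ha
  have ha0 : 0 ≤ a := measureReal_nonneg
  rcases ha0.eq_or_lt with h | hapos
  · have hnull : (stdGaussian E) A = 0 := by
      have : (stdGaussian E).real A = 0 := by rw [← ha, ← h]
      rwa [measureReal_def, ENNReal.toReal_eq_zero_iff, or_iff_left (measure_ne_top _ _)] at this
    rw [Measure.restrict_eq_zero.2 hnull, ← h]
    simp
  · set t := √(lam / (4 * a)) with ht
    have htpos : 0 < t := Real.sqrt_pos.2 (by positivity)
    have htsq : t ^ 2 = lam / (4 * a) := Real.sq_sqrt (by positivity)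
    have hlam' : lam = 4 * a * t ^ 2 := by
      rw [htsq]; field_simp
    have h1 := cell_norm A hA t htpos.le
    rw [← ha] at h1
    have h2 : Gfun t ≤ a * t := by
      have : 4 * t * Gfun t ≤ 4 * t * (a * t) := by
        calc 4 * t * Gfun t ≤ lam := hkey
          _ = 4 * t * (a * t) := by rw [hlam']; ring
      exact le_of_mul_le_mul_left this (by positivity)
    have h3 : ‖∫ x in A, x ∂(stdGaussian E)‖ ≤ 2 * a * t := by linarith
    calc ‖∫ x in A, x ∂(stdGaussian E)‖ ^ 2 ≤ (2 * a * t) ^ 2 :=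
          pow_le_pow_left₀ (norm_nonneg _) h3 2
      _ = lam * a := by rw [hlam']; ring

/-- universal single-cell bound -/
lemma cell_sq_all (A : Set E) (hA : MeasurableSet A) :
    ‖∫ x in A, x ∂(stdGaussian E)‖ ^ 2 ≤ 81/200 * (stdGaussian E).real A :=
  cell_sq_of_key A hA (81/200) (by norm_num) (key_all _ (Real.sqrt_nonneg _))

lemma cell_sq_small (A : Set E) (hA : MeasurableSet A) (ha : (stdGaussian E).real A ≤ 1/10) :
    ‖∫ x in A, x ∂(stdGaussian E)‖ ^ 2 ≤ 35809/100000 * (stdGaussian E).real A := by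
  have ha0 : 0 ≤ (stdGaussian E).real A := measureReal_nonneg
  rcases ha0.eq_or_lt with h | hapos
  · have hnull : (stdGaussian E) A = 0 := by
      have : (stdGaussian E).real A = 0 := h.symm
      rwa [measureReal_def, ENNReal.toReal_eq_zero_iff, or_iff_left (measure_ne_top _ _)] at this
    rw [Measure.restrict_eq_zero.2 hnull, ← h]
    simp
  · apply cell_sq_of_key A hA (35809/100000) (by norm_num)
    apply key_large
    apply Real.le_sqrt_of_sq_le
    rw [le_div_iff₀ (by positivity)]
    nlinarith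

lemma cell_sq_mid (A : Set E) (hA : MeasurableSet A) (ha1 : 1/10 ≤ (stdGaussian E).real A)
    (ha2 : (stdGaussian E).real A ≤ 1/7) :
    ‖∫ x in A, x ∂(stdGaussian E)‖ ^ 2 ≤ 35809/100000 * (stdGaussian E).real A := by
  have h1 := cell_norm A hA (107/100) (by norm_num)
  have h2 := Gfun_107
  set a := (stdGaussian E).real A with ha
  have h3 : ‖∫ x in A, x ∂(stdGaussian E)‖ ≤ 73024/1000000 + 107/100 * a := by linarith
  calc ‖∫ x in A, x ∂(stdGaussian E)‖ ^ 2 ≤ (73024/1000000 + 107/100 * a) ^ 2 :=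
        pow_le_pow_left₀ (norm_nonneg _) h3 2
    _ ≤ 35809/100000 * a := by nlinarith [mul_nonneg (sub_nonneg.2 ha1) (sub_nonneg.2 ha2)]

/-- cells of measure at most `1/7` -/
lemma cell_sq_seventh (A : Set E) (hA : MeasurableSet A) (ha : (stdGaussian E).real A ≤ 1/7) :
    ‖∫ x in A, x ∂(stdGaussian E)‖ ^ 2 ≤ 9 / (8 * π) * (stdGaussian E).real A := by
  have h : ‖∫ x in A, x ∂(stdGaussian E)‖ ^ 2 ≤ 35809/100000 * (stdGaussian E).real A := by
    rcases le_total ((stdGaussian E).real A) (1/10) with h | h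
    · exact cell_sq_small A hA h
    · exact cell_sq_mid A hA h ha
  refine le_trans h ?_
  exact mul_le_mul_of_nonneg_right lam0_le measureReal_nonneg

/-- any cell: `|z(A)|^2 ≤ 1/(2π)` -/
lemma cell_sq_half (A : Set E) (hA : MeasurableSet A) :
    ‖∫ x in A, x ∂(stdGaussian E)‖ ^ 2 ≤ 1 / (2 * π) := by
  have h1 := cell_norm A hA 0 le_rfl
  have h2 := Gfun_zero_le
  have h3 : ‖∫ x in A, x ∂(stdGaussian E)‖ ≤ c0 := by linarith
  rw [← c0_sq]
  exact pow_le_pow_left₀ (norm_nonneg _) h3 2

/-- total measure of a disjoint family -/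
lemma sum_measure_le {k : ℕ} (A : Fin k → Set E) (hA : ∀ i, MeasurableSet (A i))
    (hd : Pairwise (Function.onFun Disjoint A)) :
    ∑ i, (stdGaussian E).real (A i) ≤ 1 := by
  have h1 : (stdGaussian E).real (⋃ i, A i) = ∑ i, (stdGaussian E).real (A i) := by
    have := measureReal_biUnion_finset (μ := stdGaussian E) (s := Finset.univ) (f := A)
      (fun i _ j _ hij => hd hij) (fun i _ => hA i)
    simpa using this
  rw [← h1]
  exact measureReal_le_one

end Vale.Agent.P226
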