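import Mathlib

/-!
# One-dimensional Gaussian estimates

`Gfun t = E (g - t)_+` for a standard Gaussian `g`, with upper bounds.
-/

open MeasureTheory ProbabilityTheory Set Filter Real

namespace Vale.Agent.P226

/-- `E (g - t)_+` for a standard real Gaussian `g`. -/
noncomputable def Gfun (t : ℝ) : ℝ := ∫ y, max (y - t) 0 ∂(gaussianReal 0 1)

lemma integrable_id_gauss : Integrable (fun y : ℝ => y) (gaussianReal 0 1) :=
  IsGaussian.integrable_fun_id

lemma integrable_pos_part (t : ℝ) : Integrable (fun y : ℝ => max (y - t) 0) (gaussianReal 0 1) := by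
  have h : Integrable (fun y : ℝ => y - t) (gaussianReal 0 1) :=
    integrable_id_gauss.sub (integrable_const t)
  exact h.pos_part

lemma Gfun_nonneg (t : ℝ) : 0 ≤ Gfun t := by
  unfold Gfun
  exact integral_nonneg (fun y => le_max_right _ _)

/-- Chernoff-type bound. -/
lemma Gfun_le_exp (t : ℝ) (ht : 0 < t) : Gfun t ≤ rexp (-t ^ 2 / 2 - 1) / t := by
  have hpt : ∀ y : ℝ, max (y - t) 0 ≤ rexp (-t ^ 2 - 1) / t * rexp (t * y) := by
    intro y
    have hpos : 0 ≤ rexp (-t ^ 2 - 1) / t * rexp (t * y) := by positivity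
    apply max_le _ hpos
    have h1 : t * (y - t) - 1 + 1 ≤ rexp (t * (y - t) - 1) := Real.add_one_le_exp _
    have h2 : rexp (-t ^ 2 - 1) * rexp (t * y) = rexp (t * (y - t) - 1) := by
      rw [← Real.exp_add]; congr 1; ring
    rw [div_mul_eq_mul_div, h2, le_div_iff₀ ht]
    linarith
  have hint : Integrable (fun y : ℝ => rexp (-t ^ 2 - 1) / t * rexp (t * y)) (gaussianReal 0 1) :=
    (integrable_exp_mul_gaussianReal t).const_mul _
  have h3 : Gfun t ≤ ∫ y, rexp (-t ^ 2 - 1) / t * rexp (t * y) ∂(gaussianReal 0 1) :=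
    integral_mono (integrable_pos_part t) hint hpt
  have h4 : ∫ y, rexp (t * y) ∂(gaussianReal 0 1) = rexp (t ^ 2 / 2) := by
    have := congrFun (mgf_fun_id_gaussianReal (μ := 0) (v := 1)) t
    simp only [mgf] at this
    rw [this]
    congr 1
    simp
  rw [integral_const_mul, h4] at h3
  refine le_trans h3 (le_of_eq ?_)
  rw [div_mul_eq_mul_div, ← Real.exp_add]
  congr 2
  ring

lemma exp_neg_le_quad (u : ℝ) (hu : 0 ≤ u) : rexp (-u) ≤ 1 - u + u ^ 2 / 2 := by
  have h1 : 1 + u + u ^ 2 / 2 ≤ rexp u := Real.quadratic_le_exp_of_nonneg hu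
  have hpos : 0 < 1 + u + u ^ 2 / 2 := by positivity
  rw [Real.exp_neg]
  calc (rexp u)⁻¹ ≤ (1 + u + u ^ 2 / 2)⁻¹ := inv_anti₀ hpos h1
    _ ≤ 1 - u + u ^ 2 / 2 := by
      rw [inv_le_iff_one_le_mul₀ hpos]
      nlinarith [sq_nonneg (u ^ 2)]

lemma integral_Ioi_mul_exp : ∫ y in Ioi (0:ℝ), y * rexp (-(1/2) * y ^ 2) = 1 := by
  have hderiv : ∀ x ∈ Ici (0:ℝ), HasDerivAt (fun y : ℝ => - rexp (-(1/2) * y ^ 2))
      (x * rexp (-(1/2) * x ^ 2)) x := by
    intro x _
    have h1 : HasDerivAt (fun y : ℝ => -(1/2) * y ^ 2) (-(1/2) * (2 * x)) x := by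
      have := (hasDerivAt_pow 2 x).const_mul (-(1/2) : ℝ)
      exact this.congr_deriv (by simp)
    have h2 : HasDerivAt (fun y : ℝ => rexp (-(1/2) * y ^ 2))
        (rexp (-(1/2) * x ^ 2) * (-(1/2) * (2 * x))) x := h1.exp
    exact h2.neg.congr_deriv (by ring)
  have hint : IntegrableOn (fun y : ℝ => y * rexp (-(1/2) * y ^ 2)) (Ioi 0) :=
    (integrable_mul_exp_neg_mul_sq (by norm_num : (0:ℝ) < 1/2)).integrableOn
  have htend : Tendsto (fun y : ℝ => - rexp (-(1/2) * y ^ 2)) atTop (nhds 0) := by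
    have h1 : Tendsto (fun y : ℝ => (1/2) * y ^ 2) atTop atTop :=
      (tendsto_pow_atTop (by norm_num)).const_mul_atTop (by norm_num)
    have h2 : Tendsto (fun y : ℝ => rexp (-((1/2) * y ^ 2))) atTop (nhds 0) :=
      Real.tendsto_exp_neg_atTop_nhds_zero.comp h1
    have h3 := h2.neg
    simp only [neg_zero] at h3
    refine h3.congr ?_
    intro y
    rw [neg_mul]
  have := integral_Ioi_of_hasDerivAt_of_tendsto' hderiv hint htend
  rw [this]
  simp

lemma integral_poly (t : ℝ) :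
    ∫ y in (0:ℝ)..t, (t - y) * (1 - y ^ 2 / 2 + y ^ 4 / 8)
      = t ^ 2 / 2 - t ^ 4 / 24 + t ^ 6 / 240 := by
  have hderiv : ∀ x ∈ uIcc (0:ℝ) t, HasDerivAt
      (fun y : ℝ => t * y - y ^ 2 / 2 - t * y ^ 3 / 6 + y ^ 4 / 8 + t * y ^ 5 / 40 - y ^ 6 / 48)
      ((t - x) * (1 - x ^ 2 / 2 + x ^ 4 / 8)) x := by
    intro x _
    have h1 := (hasDerivAt_id x).const_mul t
    have h2 := (hasDerivAt_pow 2 x).div_const 2
    have h3 := ((hasDerivAt_pow 3 x).const_mul t).div_const 6
    have h4 := (hasDerivAt_pow 4 x).div_const 8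
    have h5 := ((hasDerivAt_pow 5 x).const_mul t).div_const 40
    have h6 := (hasDerivAt_pow 6 x).div_const 48
    exact (((((h1.sub h2).sub h3).add h4).add h5).sub h6).congr_deriv (by simp; ring)
  rw [intervalIntegral.integral_eq_sub_of_hasDerivAt hderiv
    (by apply Continuous.intervalIntegrable; fun_prop)]
  ring

/-- the constant `1 / √(2π)` -/
noncomputable def c0 : ℝ := (√(2 * π))⁻¹

lemma c0_pos : 0 < c0 := by
  unfold c0
  positivity

lemma pdf_eq (y : ℝ) : gaussianPDFReal 0 1 y = c0 * rexp (-(1/2) * y ^ 2) := by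
  unfold gaussianPDFReal c0
  simp only [NNReal.coe_one, mul_one, sub_zero]
  congr 2
  ring

lemma integral_Ioi_exp : ∫ y in Ioi (0:ℝ), rexp (-(1/2) * y ^ 2) = √(2 * π) / 2 := by
  rw [integral_gaussian_Ioi (1/2)]
  congr 2
  ring

lemma Gfun_le_poly (t : ℝ) (ht : 0 ≤ t) :
    Gfun t ≤ c0 * (1 + t ^ 2 / 2 - t ^ 4 / 24 + t ^ 6 / 240) - t / 2 := by
  have hi1 : Integrable (fun y : ℝ => rexp (-(1/2) * y ^ 2)) volume :=
    integrable_exp_neg_mul_sq (by norm_num : (0:ℝ) < 1/2)
  have hi2 : Integrable (fun y : ℝ => y * rexp (-(1/2) * y ^ 2)) volume :=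
    integrable_mul_exp_neg_mul_sq (by norm_num : (0:ℝ) < 1/2)
  have hf1 : Integrable (fun y : ℝ => c0 * rexp (-(1/2) * y ^ 2) * (y - t)) volume := by
    have : (fun y : ℝ => c0 * rexp (-(1/2) * y ^ 2) * (y - t))
        = fun y : ℝ => c0 * (y * rexp (-(1/2) * y ^ 2)) - (c0 * t) * rexp (-(1/2) * y ^ 2) := by
      ext y; ring
    rw [this]
    exact (hi2.const_mul _).sub (hi1.const_mul _)
  have hf2 : Integrable (fun y : ℝ => c0 * rexp (-(1/2) * y ^ 2) * (t - y)) volume := by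
    have : (fun y : ℝ => c0 * rexp (-(1/2) * y ^ 2) * (t - y))
        = fun y : ℝ => - (c0 * rexp (-(1/2) * y ^ 2) * (y - t)) := by
      ext y; ring
    rw [this]
    exact hf1.neg
  have e1 : Gfun t = ∫ y, ((Ioi (0:ℝ)).indicator (fun y => c0 * rexp (-(1/2) * y ^ 2) * (y - t)) y
      + (Ioc (0:ℝ) t).indicator (fun y => c0 * rexp (-(1/2) * y ^ 2) * (t - y)) y) := by
    unfold Gfun
    rw [integral_gaussianReal_eq_integral_smul (by norm_num)]
    apply integral_congr_ae
    refine ae_of_all _ (fun y => ?_)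
    simp only [smul_eq_mul, pdf_eq]
    rcases le_or_gt y 0 with h | h
    · have h1 : y ∉ Ioi (0:ℝ) := by simp [h]
      have h2 : y ∉ Ioc (0:ℝ) t := by simp [h]
      rw [indicator_of_notMem h1, indicator_of_notMem h2, max_eq_right (by linarith)]
      simp
    · have h1 : y ∈ Ioi (0:ℝ) := h
      rcases le_or_gt y t with h' | h'
      · have h2 : y ∈ Ioc (0:ℝ) t := ⟨h, h'⟩
        rw [indicator_of_mem h1, indicator_of_mem h2, max_eq_right (by linarith)]
        ring
      · have h2 : y ∉ Ioc (0:ℝ) t := by simp [h']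
        rw [indicator_of_mem h1, indicator_of_notMem h2, max_eq_left (by linarith)]
        ring
  rw [e1, integral_add (hf1.indicator measurableSet_Ioi) (hf2.indicator measurableSet_Ioc),
    integral_indicator measurableSet_Ioi, integral_indicator measurableSet_Ioc]
  have e2 : ∫ y in Ioi (0:ℝ), c0 * rexp (-(1/2) * y ^ 2) * (y - t) = c0 - t / 2 := by
    have : (fun y : ℝ => c0 * rexp (-(1/2) * y ^ 2) * (y - t))
        = fun y : ℝ => c0 * (y * rexp (-(1/2) * y ^ 2)) - (c0 * t) * rexp (-(1/2) * y ^ 2) := by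
      ext y; ring
    rw [this, integral_sub (hi2.const_mul _).integrableOn (hi1.const_mul _).integrableOn,
      integral_const_mul, integral_const_mul, integral_Ioi_mul_exp, integral_Ioi_exp]
    unfold c0
    have : √(2 * π) ≠ 0 := by positivity
    field_simp
  have e3 : ∫ y in Ioc (0:ℝ) t, c0 * rexp (-(1/2) * y ^ 2) * (t - y)
      ≤ c0 * (t ^ 2 / 2 - t ^ 4 / 24 + t ^ 6 / 240) := by
    rw [← integral_poly t, intervalIntegral.integral_of_le ht, ← integral_const_mul]
    apply setIntegral_mono_on hf2.integrableOn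
    · apply Continuous.integrableOn_Ioc
      fun_prop
    · exact measurableSet_Ioc
    · intro y hy
      have h1 : rexp (-(1/2) * y ^ 2) ≤ 1 - y ^ 2 / 2 + y ^ 4 / 8 := by
        have := exp_neg_le_quad (y ^ 2 / 2) (by positivity)
        have e : -(1/2) * y ^ 2 = -(y ^ 2 / 2) := by ring
        rw [e]
        calc rexp (-(y ^ 2 / 2)) ≤ 1 - y ^ 2 / 2 + (y ^ 2 / 2) ^ 2 / 2 := this
          _ = 1 - y ^ 2 / 2 + y ^ 4 / 8 := by ring
      have h2 : 0 ≤ t - y := by linarith [hy.2]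
      have h3 := c0_pos
      calc c0 * rexp (-(1/2) * y ^ 2) * (t - y)
          ≤ c0 * (1 - y ^ 2 / 2 + y ^ 4 / 8) * (t - y) := by
            apply mul_le_mul_of_nonneg_right _ h2
            exact mul_le_mul_of_nonneg_left h1 h3.le
        _ = c0 * ((t - y) * (1 - y ^ 2 / 2 + y ^ 4 / 8)) := by ring
  rw [e2]
  linarith

end Vale.Agent.P226
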